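import Vale.Agent.P264.H489.Geo

/-! # P264 : arbitrarily short Calabi flows in one fixed Kähler class

For every `ε > 0` there is a smooth `U(8)`-invariant Kähler form `ω₀ = i∂∂̄ log h₀` on `ℙ⁸`, in the class of the Fubini-Study
form and equal to the Fubini-Study form outside the unit ball `{|z| < 1}` of the affine chart `Z_0 = 1`, whose maximal smooth
Calabi flow has `T_max < ε`.  The class contains the Fubini-Study metric, which has constant scalar curvature `72` and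
`T_max = ∞`. -/

open scoped ENNReal

theorem Vale.Agent.Results.P264.ArbitrarilyShort.result :
    (∀ ε : ℝ≥0∞, 0 < ε → ∃ h₀ : P264.Geo.Cm 9 → ℝ, P264.Geo.IsKahler 8 h₀ ∧
        (∀ Z W : P264.Geo.Cm 9, Z ≠ 0 → W ≠ 0 → ‖Z 0‖ = ‖W 0‖ →
          ∑ i : Fin 8, ‖Z i.succ‖ ^ 2 = ∑ i : Fin 8, ‖W i.succ‖ ^ 2 → h₀ Z = h₀ W) ∧
        (∀ Z : P264.Geo.Cm 9, Z ≠ 0 → ‖Z 0‖ ^ 2 ≤ ∑ i : Fin 8, ‖Z i.succ‖ ^ 2 → h₀ Z = ∑ i, ‖Z i‖ ^ 2) ∧
        P264.Geo.Tmax 8 h₀ < ε) ∧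
      P264.Geo.IsKahler 8 (fun Z => ∑ i, ‖Z i‖ ^ 2) ∧
      (∀ (k : Fin 9) (z : P264.Geo.Cm 8),
        P264.Geo.scalG (P264.Geo.cHess (P264.Geo.loc (fun Z => ∑ i, ‖Z i‖ ^ 2) k)) z = 72) ∧
      P264.Geo.Tmax 8 (fun Z => ∑ i, ‖Z i‖ ^ 2) = ⊤ :=
  ⟨fun ε hε => P264.H489.short ε hε, P264.Geo.fs_kahler,
    fun k z => by
      have h := P264.Geo.fs_scal (n := 8) (by norm_num) k z
      norm_num at h
      exact h, P264.Geo.fs_Tmax (by norm_num)⟩
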