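import Vale.Agent.P264.Geo.Core
import Vale.Agent.P264.H403.Defs
import Vale.Agent.P264.H403.Asm
import Vale.Agent.P264.H849.GLoc
import Vale.Agent.P264.H849.Inv

/-! # P264 : short-lived Calabi flows are dense, by modifications in an arbitrarily small ball

(1) The disproof of the long-time existence conjecture.  (2) For every `U(8)`-invariant Kähler form
`i∂∂̄ log H₁` on `ℙ⁸`, in any Kähler class, and every `ε > 0` there is a `U(8)`-invariant Kähler form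
`i∂∂̄ log H₀` in the same class, equal to the given one outside the ball `|z|² < ε` of the chart
`Z_0 = 1`, with relative potential `log (H₀ / H₁)` bounded by `ε`, and with `T_max < ε`.
(3) Every Kähler class of `ℙ⁸` contains a `U(8)`-invariant metric of constant scalar curvature. -/

open P264.Geo in
theorem Vale.Agent.Results.P264.LocalBlowup.result :
    ((∃ h₀ : Cm 9 → ℝ, IsKahler 8 h₀ ∧ Tmax 8 h₀ < ⊤) ∧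
      IsKahler 8 (fun Z => ∑ i, ‖Z i‖ ^ 2) ∧
      (∀ (k : Fin 9) (z : Cm 8), scalG (cHess (loc (fun Z => ∑ i, ‖Z i‖ ^ 2) k)) z = 72) ∧
      Tmax 8 (fun Z => ∑ i, ‖Z i‖ ^ 2) = ⊤) ∧
    (∀ a : ℝ, 0 < a → ∀ H₁ : Cm 9 → ℝ, IsKahlerIn 8 a H₁ →
      (∀ Z W : Cm 9, Z ≠ 0 → W ≠ 0 → ‖Z 0‖ = ‖W 0‖ →
        ∑ i : Fin 8, ‖Z i.succ‖ ^ 2 = ∑ i : Fin 8, ‖W i.succ‖ ^ 2 → H₁ Z = H₁ W) →
      ∀ ε : ℝ, 0 < ε → ∃ H₀ : Cm 9 → ℝ, IsKahlerIn 8 a H₀ ∧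
        (∀ Z W : Cm 9, Z ≠ 0 → W ≠ 0 → ‖Z 0‖ = ‖W 0‖ →
          ∑ i : Fin 8, ‖Z i.succ‖ ^ 2 = ∑ i : Fin 8, ‖W i.succ‖ ^ 2 → H₀ Z = H₀ W) ∧
        (∀ Z : Cm 9, Z ≠ 0 → ε * ‖Z 0‖ ^ 2 ≤ ∑ i : Fin 8, ‖Z i.succ‖ ^ 2 → H₀ Z = H₁ Z) ∧
        (∀ Z : Cm 9, Z ≠ 0 → |Real.log (H₀ Z / H₁ Z)| ≤ ε) ∧
        TmaxIn 8 a H₀ < ENNReal.ofReal ε) ∧
    (∀ a : ℝ, 0 < a → IsKahlerIn 8 a (fun Z : Cm 9 => (∑ i, ‖Z i‖ ^ 2) ^ a) ∧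
      (∀ (k : Fin 9) (z : Cm 8),
        scalG (cHess (loc (fun Z => (∑ i, ‖Z i‖ ^ 2) ^ a) k)) z = 72 / a) ∧
      TmaxIn 8 a (fun Z : Cm 9 => (∑ i, ‖Z i‖ ^ 2) ^ a) = ⊤) := by
  have hloc : ∀ h₁ : Cm 9 → ℝ, IsKahler 8 h₁ → Inv h₁ → ∀ ε : ℝ, 0 < ε →
      ∃ h₀ : Cm 9 → ℝ, IsKahler 8 h₀ ∧ Inv h₀ ∧
        (∀ Z, Z ≠ 0 → ε * ‖Z 0‖ ^ 2 ≤ ∑ i : Fin 8, ‖Z i.succ‖ ^ 2 → h₀ Z = h₁ Z) ∧
        (∀ Z, Z ≠ 0 → |Real.log (h₀ Z / h₁ Z)| ≤ ε) ∧ Tmax 8 h₀ < ENNReal.ofReal ε := by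
    intro h₁ hK hI ε hε
    obtain ⟨V, hV, hVh⟩ := P264.L.inv_realise (by norm_num) hK hI
    exact loc_of (by norm_num) ⟨hV, hVh⟩ (P264.L.loc1DG hV) hε
  refine ⟨⟨?_, fs_kahler, ?_, fs_Tmax (by norm_num)⟩, ?_, fun a ha => fs_in ha⟩
  · obtain ⟨h₀, hK, _, hlt⟩ := short_life (ε := 1) one_pos
    exact ⟨h₀, hK, hlt.trans ENNReal.one_lt_top⟩
  · intro k z
    have h := fs_scal (n := 8) (by norm_num) k z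
    norm_num at h
    exact h
  · intro a ha H₁ hK hI ε hε
    exact loc_in ha hloc hK hI hε
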