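import Vale.Agent.P264.Geo.Core
import Vale.Agent.P264.H403.Defs
import Vale.Agent.P264.H403.Main

/-! # P264 : the Calabi flow on `ℙ⁸` has arbitrarily short life spans in every Kähler class

(1) The disproof of the long-time existence conjecture.  (2) For every Kähler class of `ℙ⁸` and every
`ε > 0` some `U(8)`-invariant Kähler form of the class has `T_max < ε`.  (3) Every Kähler class of
`ℙ⁸` contains a metric of constant scalar curvature. -/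

open P264.Geo in
theorem Vale.Agent.Results.P264.ShortLifeSpans.result :
    ((∃ h₀ : Cm 9 → ℝ, IsKahler 8 h₀ ∧ Tmax 8 h₀ < ⊤) ∧
      IsKahler 8 (fun Z => ∑ i, ‖Z i‖ ^ 2) ∧
      (∀ (k : Fin 9) (z : Cm 8), scalG (cHess (loc (fun Z => ∑ i, ‖Z i‖ ^ 2) k)) z = 72) ∧
      Tmax 8 (fun Z => ∑ i, ‖Z i‖ ^ 2) = ⊤) ∧
    (∀ a : ℝ, 0 < a → ∀ ε : ENNReal, 0 < ε →
      ∃ H₀ : Cm 9 → ℝ, IsKahlerIn 8 a H₀ ∧
        (∀ Z W : Cm 9, Z ≠ 0 → W ≠ 0 → ‖Z 0‖ = ‖W 0‖ →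
          ∑ i : Fin 8, ‖Z i.succ‖ ^ 2 = ∑ i : Fin 8, ‖W i.succ‖ ^ 2 → H₀ Z = H₀ W) ∧
        TmaxIn 8 a H₀ < ε) ∧
    (∀ a : ℝ, 0 < a → IsKahlerIn 8 a (fun Z : Cm 9 => (∑ i, ‖Z i‖ ^ 2) ^ a) ∧
      (∀ (k : Fin 9) (z : Cm 8),
        scalG (cHess (loc (fun Z => (∑ i, ‖Z i‖ ^ 2) ^ a) k)) z = 72 / a) ∧
      TmaxIn 8 a (fun Z : Cm 9 => (∑ i, ‖Z i‖ ^ 2) ^ a) = ⊤) := by
  refine ⟨⟨?_, fs_kahler, ?_, fs_Tmax (by norm_num)⟩, ?_, fun a ha => fs_in ha⟩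
  · obtain ⟨h₀, hK, _, hlt⟩ := short_life (ε := 1) one_pos
    exact ⟨h₀, hK, hlt.trans ENNReal.one_lt_top⟩
  · intro k z
    have h := fs_scal (n := 8) (by norm_num) k z
    norm_num at h
    exact h
  · intro a ha ε hε
    obtain ⟨H₀, hK, hI, hlt⟩ := short_life_in ha hε
    exact ⟨H₀, hK, hI, hlt⟩
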